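import Vale.Agent.P224.R2.H484.OfChk
import Vale.Agent.P224.R2.H758.TbD
import Vale.Agent.P224.R2.H484.Ce2A
import Vale.Agent.P224.R2.H484.Ce2B
import Vale.Agent.P224.R2.H484.Ce2C
import Vale.Agent.P224.R2.H484.Ce2D
import Vale.Agent.P224.R2.H484.Ce2E
import Vale.Agent.P224.R2.H484.Ce2F

/-!
The block of the dimensions 200 to 400 with the thresholds 96 / 5 and 53 / 4, and the certificates
of the relative tails.
-/

namespace Vale.Agent.P224.R2.H484

open Vale.Agent.P224.R2.H869 Vale.Agent.P224.R2.H758 Vale.Agent.P224.R2.H876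

/-- the block 200 to 400 -/
def bB200 : BlkS where
  m1 := 200
  m2 := 400
  L := Lb200
  Lm := L400
  c1 := 96 / 5
  c2 := 53 / 4
  η := 1 / 20
  β := 79 / 100
  K := 57 / 50
  jj := 5
  i1 := 12
  i2 := 8
  X2 := tN X2b200
  X1 := tN X1b200
  X0 := tN X0b200
  z2 := z2b200
  z1 := z1b200
  z0 := z0b200
  ok := okb200
  cells := cellsb200
  coef := coefb200
  mom := fun m q h1 h2 => MM_le_400 (by omega) (by omega) q

/-- `kap = 3 / 100` -/
def e2_03c : CertM bB200 := ofCheck e2_03M e2_03B (1 / 50) (3/100) (1117/200000) (1 / 10000)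
  [(29/50), (61/100), (31/50), (16/25), (16/25), (13/20), (13/20)] (53/100) (by decide +kernel)
  e2_03_cmp e2_03_chk

/-- `kap = 1 / 20` -/
def e2_05c : CertM bB200 := ofCheck e2_05M e2_05B (1 / 50) (1/20) (1679/200000) (1 / 10000)
  [(11/20), (57/100), (59/100), (3/5), (61/100), (61/100), (61/100)] (23/50) (by decide +kernel)
  e2_05_cmp e2_05_chk

/-- `kap = 67 / 1000` -/
def e2_067c : CertM bB200 := ofCheck e2_067M e2_067B (1 / 50) (67/1000) (11537/1000000) (1 /
  10000) [(51/100), (53/100), (11/20), (14/25), (57/100), (29/50), (29/50)] (41/100) (by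
  decide +kernel) e2_067_cmp e2_067_chk

/-- `kap = 17 / 200` -/
def e2_085c : CertM bB200 := ofCheck e2_085M e2_085B (1 / 50) (17/200) (1983/125000) (1 / 10000)
  [(49/100), (51/100), (53/100), (27/50), (11/20), (14/25), (14/25)] (9/25) (by decide +kernel)
  e2_085_cmp e2_085_chk

/-- `kap = 1 / 10` -/
def e2_10c : CertM bB200 := ofCheck e2_10M e2_10B (1 / 50) (1/10) (10139/500000) (1 / 10000)
  [(47/100), (12/25), (1/2), (51/100), (13/25), (53/100), (53/100)] (8/25) (by decide +kernel)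
  e2_10_cmp e2_10_chk

/-- `kap = 11 / 100` -/
def e2_11c : CertM bB200 := ofCheck e2_11M e2_11B (1 / 50) (11/100) (1221/50000) (1 / 10000)
  [(12/25), (1/2), (51/100), (13/25), (53/100), (53/100), (53/100)] (3/10) (by decide +kernel)
  e2_11_cmp e2_11_chk

/-- `kap = 23 / 200` -/
def e2_115c : CertM bB200 := ofCheck e2_115M e2_115B (1 / 50) (23/200) (3253/125000) (1 / 10000)
  [(12/25), (49/100), (1/2), (51/100), (13/25), (13/25), (53/100)] (29/100) (by decide +kernel)
  e2_115_cmp e2_115_chk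

/-- `kap = 3 / 25` -/
def e2_12c : CertM bB200 := ofCheck e2_12M e2_12B (1 / 50) (3/25) (27253/1000000) (1 / 10000)
  [(23/50), (47/100), (12/25), (49/100), (1/2), (1/2), (1/2)] (7/25) (by decide +kernel)
  e2_12_cmp e2_12_chk

/-- `kap = 1 / 8` -/
def e2_125c : CertM bB200 := ofCheck e2_125M e2_125B (1 / 50) (1/8) (29541/1000000) (1 / 10000)
  [(23/50), (47/100), (12/25), (49/100), (1/2), (1/2), (1/2)] (7/25) (by decide +kernel)
  e2_125_cmp e2_125_chk

/-- `kap = 13 / 100` -/
def e2_13c : CertM bB200 := ofCheck e2_13M e2_13B (1 / 50) (13/100) (31421/1000000) (1 / 10000)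
  [(47/100), (12/25), (49/100), (1/2), (1/2), (51/100), (51/100)] (13/50) (by decide +kernel)
  e2_13_cmp e2_13_chk

/-- `kap = 27 / 200` -/
def e2_135c : CertM bB200 := ofCheck e2_135M e2_135B (1 / 50) (27/200) (33291/1000000) (1 /
  10000) [(23/50), (47/100), (12/25), (49/100), (49/100), (1/2), (1/2)] (13/50) (by
  decide +kernel) e2_135_cmp e2_135_chk

/-- `kap = 7 / 50` -/
def e2_14c : CertM bB200 := ofCheck e2_14M e2_14B (1 / 50) (7/50) (7001/200000) (1 / 10000)
  [(47/100), (12/25), (49/100), (1/2), (51/100), (51/100), (13/25)] (1/4) (by decide +kernel)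
  e2_14_cmp e2_14_chk

/-- `kap = 29 / 200` -/
def e2_145c : CertM bB200 := ofCheck e2_145M e2_145B (1 / 50) (29/200) (18933/500000) (1 / 10000)
  [(11/25), (9/20), (9/20), (23/50), (47/100), (47/100), (47/100)] (6/25) (by decide +kernel)
  e2_145_cmp e2_145_chk

/-- `kap = 3 / 20` -/
def e2_15c : CertM bB200 := ofCheck e2_15M e2_15B (1 / 50) (3/20) (20159/500000) (1 / 10000)
  [(11/25), (9/20), (23/50), (23/50), (47/100), (47/100), (12/25)] (6/25) (by decide +kernel)
  e2_15_cmp e2_15_chk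

/-- `kap = 4 / 25` -/
def e2_16c : CertM bB200 := ofCheck e2_16M e2_16B (1 / 50) (4/25) (22061/500000) (1 / 10000)
  [(43/100), (11/25), (9/20), (9/20), (23/50), (23/50), (23/50)] (6/25) (by decide +kernel)
  e2_16_cmp e2_16_chk

/-- `kap = 9 / 50` -/
def e2_18c : CertM bB200 := ofCheck e2_18M e2_18B (1 / 50) (9/50) (852/15625) (1 / 10000)
  [(43/100), (11/25), (9/20), (9/20), (23/50), (23/50), (23/50)] (1/5) (by decide +kernel)
  e2_18_cmp e2_18_chk

/-- `kap = 19 / 100` -/
def e2_19c : CertM bB200 := ofCheck e2_19M e2_19B (1 / 50) (19/100) (62157/1000000) (1 / 10000)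
  [(43/100), (11/25), (11/25), (9/20), (9/20), (23/50), (23/50)] (19/100) (by decide +kernel)
  e2_19_cmp e2_19_chk

/-- `kap = 1 / 5` -/
def e2_20c : CertM bB200 := ofCheck e2_20M e2_20B (1 / 50) (1/5) (65997/1000000) (1 / 10000)
  [(21/50), (21/50), (43/100), (43/100), (11/25), (11/25), (11/25)] (19/100) (by decide +kernel)
  e2_20_cmp e2_20_chk

/-- the certificates of the block -/
def certsB200 : List (CertM bB200) := [e2_03c, e2_05c, e2_067c, e2_085c, e2_10c, e2_11c, e2_115c,
  e2_12c, e2_125c, e2_13c, e2_135c, e2_14c, e2_145c, e2_15c, e2_16c, e2_18c, e2_19c, e2_20c]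

theorem certsB200_map : certsB200.map (fun C => (C.kap, C.rel)) = [(3 / 100, 1117 / 200000), (1 /
  20, 1679 / 200000), (67 / 1000, 11537 / 1000000), (17 / 200, 1983 / 125000), (1 / 10, 10139 /
  500000), (11 / 100, 1221 / 50000), (23 / 200, 3253 / 125000), (3 / 25, 27253 / 1000000), (1 /
  8, 29541 / 1000000), (13 / 100, 31421 / 1000000), (27 / 200, 33291 / 1000000), (7 / 50, 7001 /
  200000), (29 / 200, 18933 / 500000), (3 / 20, 20159 / 500000), (4 / 25, 22061 / 500000), (9 /
  50, 852 / 15625), (19 / 100, 62157 / 1000000), (1 / 5, 65997 / 1000000)] := rfl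

end Vale.Agent.P224.R2.H484
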